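import Vale.Agent.Lib.P154.Neg.LP.Base

/-!
The data of a certificate for a restricted range of `theta`, with all its checks.
-/

namespace Vale.Agent.Lib.P154.Neg.B4835

open Vale.Agent.Lib.P154.Neg.Kron Vale.Agent.Lib.P154.Neg Vale.Agent.Lib.P154.Neg.Cst

def tX_1 : CT := (.leaf [131, 6420, 314581] [48, 48, 48])
def tX_4 : CT := (.leaf [171, 8380, 410621] [48, 48, 48])
def tX_5 : CT := (.s12 (.leaf [172, 8429, 413022] [48, 48, 48]) (.s02 (.leaf [203, 9948, 487453] [48, 48, 48]) (.s01 (.leaf [225, 11026, 540275] [48, 48, 48]) (.s12 (.leaf [231, 11320, 554681] [48, 48, 48]) (.leaf [226, 11075, 542676] [48, 48, 48])))))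
def tX_3 : CT := .s01 tX_4 tX_5
def tX_7 : CT := (.leaf [171, 8380, 410621] [48, 48, 48])
def tX_9 : CT := (.leaf [182, 8919, 437032] [48, 48, 48])
def tX_11 : CT := (.leaf [197, 9654, 473047] [48, 48, 48])
def tX_12 : CT := (.s12 (.leaf [205, 10046, 492255] [48, 48, 48]) (.s02 (.leaf [216, 10585, 518666] [48, 48, 48]) (.s12 (.leaf [223, 10928, 535473] [48, 48, 48]) (.s02 (.leaf [231, 11320, 554681] [48, 48, 48]) (.leaf [212, 10389, 509062] [48, 48, 48])))))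
def tX_10 : CT := .s02 tX_11 tX_12
def tX_8 : CT := .s12 tX_9 tX_10
def tX_6 : CT := .s02 tX_7 tX_8
def tX_2 : CT := .s12 tX_3 tX_6
def tX_0 : CT := .s02 tX_1 tX_2
def tY1_3 : CT := (.leaf [606, 29695, 1455056] [48, 48, 48])
def tY1_4 : CT := (.leaf [630, 30871, 1512680] [48, 48, 48])
def tY1_2 : CT := .s02 tY1_3 tY1_4
def tY1_5 : CT := (.leaf [614, 30087, 1474264] [48, 48, 48])
def tY1_1 : CT := .s02 tY1_2 tY1_5
def tY1_6 : CT := (.leaf [593, 29058, 1423843] [48, 48, 48])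
def tY1_0 : CT := .s02 tY1_1 tY1_6
def tY2_0 : CT := (.leaf [432, 15985, 591446] [36, 36, 36])
def tQ1_1 : BT := (.split 1 (8) (.split 3 (6) (.leaf [504, 11089, 121980, 1951681] [21, 10, 15, 6]) (.leaf [505, 11111, 122222, 1955553] [21, 10, 15, 6])) (.split 3 (6) (.split 3 (3) (.leaf [504, 11089, 121980, 1951681] [21, 10, 15, 6]) (.leaf [504, 11089, 121980, 1951681] [21, 10, 15, 6])) (.leaf [505, 11111, 122222, 1955553] [21, 10, 15, 6])))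
def tQ1_2 : BT := (.leaf [506, 11133, 122464, 1959425] [21, 10, 15, 6])
def tQ1_0 : BT := .split 3 (12) tQ1_1 tQ1_2
def tQ3_3 : BT := (.split 0 (6184) (.split 1 (4) (.leaf [532, 8513, 93644, 1498305] [15, 10, 15, 6]) (.split 0 (4548) (.split 3 (2) (.leaf [531, 8497, 93468, 1495489] [15, 10, 15, 6]) (.leaf [532, 8513, 93644, 1498305] [15, 10, 15, 6])) (.leaf [533, 8529, 93820, 1501121] [15, 10, 15, 6]))) (.leaf [533, 8529, 93820, 1501121] [15, 10, 15, 6]))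
def tQ3_8 : BT := (.leaf [533, 8529, 93820, 1501121] [15, 10, 15, 6])
def tQ3_9 : BT := (.split 0 (3730) (.split 1 (2) (.split 3 (7) (.leaf [533, 8529, 93820, 1501121] [15, 10, 15, 6]) (.split 0 (3321) (.leaf [533, 8529, 93820, 1501121] [15, 10, 15, 6]) (.leaf [533, 8529, 93820, 1501121] [15, 10, 15, 6]))) (.leaf [533, 8529, 93820, 1501121] [15, 10, 15, 6])) (.leaf [533, 8529, 93820, 1501121] [15, 10, 15, 6]))
def tQ3_7 : BT := .split 3 (6) tQ3_8 tQ3_9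
def tQ3_10 : BT := (.leaf [533, 8529, 93820, 1501121] [15, 10, 15, 6])
def tQ3_6 : BT := .split 0 (4548) tQ3_7 tQ3_10
def tQ3_11 : BT := (.split 0 (4548) (.leaf [533, 8529, 93820, 1501121] [15, 10, 15, 6]) (.leaf [533, 8529, 93820, 1501121] [15, 10, 15, 6]))
def tQ3_5 : BT := .split 1 (4) tQ3_6 tQ3_11
def tQ3_12 : BT := (.leaf [534, 8545, 93996, 1503937] [15, 10, 15, 6])
def tQ3_4 : BT := .split 0 (6184) tQ3_5 tQ3_12
def tQ3_2 : BT := .split 3 (4) tQ3_3 tQ3_4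
def tQ3_14 : BT := (.leaf [535, 8561, 94172, 1506753] [15, 10, 15, 6])
def tQ3_16 : BT := (.leaf [536, 8577, 94348, 1509569] [15, 10, 15, 6])
def tQ3_18 : BT := (.leaf [535, 8561, 94172, 1506753] [15, 10, 15, 6])
def tQ3_19 : BT := (.split 1 (6) (.split 3 (6) (.leaf [537, 8593, 94524, 1512385] [15, 10, 15, 6]) (.split 0 (14364) (.leaf [536, 8577, 94348, 1509569] [15, 10, 15, 6]) (.split 1 (5) (.leaf [537, 8593, 94524, 1512385] [15, 10, 15, 6]) (.leaf [537, 8593, 94524, 1512385] [15, 10, 15, 6])))) (.leaf [537, 8593, 94524, 1512385] [15, 10, 15, 6]))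
def tQ3_17 : BT := .split 0 (12728) tQ3_18 tQ3_19
def tQ3_15 : BT := .split 3 (4) tQ3_16 tQ3_17
def tQ3_13 : BT := .split 1 (4) tQ3_14 tQ3_15
def tQ3_1 : BT := .split 0 (9456) tQ3_2 tQ3_13
def tQ3_23 : BT := (.split 3 (4) (.split 3 (2) (.split 0 (4548) (.split 3 (1) (.leaf [531, 8497, 93468, 1495489] [15, 10, 15, 6]) (.leaf [532, 8513, 93644, 1498305] [15, 10, 15, 6])) (.leaf [533, 8529, 93820, 1501121] [15, 10, 15, 6])) (.leaf [533, 8529, 93820, 1501121] [15, 10, 15, 6])) (.leaf [533, 8529, 93820, 1501121] [15, 10, 15, 6]))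
def tQ3_24 : BT := (.leaf [534, 8545, 93996, 1503937] [15, 10, 15, 6])
def tQ3_22 : BT := .split 0 (6184) tQ3_23 tQ3_24
def tQ3_25 : BT := (.leaf [537, 8593, 94524, 1512385] [15, 10, 15, 6])
def tQ3_21 : BT := .split 0 (9456) tQ3_22 tQ3_25
def tQ3_28 : BT := (.split 0 (6184) (.split 3 (2) (.split 0 (4548) (.split 3 (1) (.leaf [532, 8513, 93644, 1498305] [15, 10, 15, 6]) (.leaf [532, 8513, 93644, 1498305] [15, 10, 15, 6])) (.leaf [533, 8529, 93820, 1501121] [15, 10, 15, 6])) (.leaf [533, 8529, 93820, 1501121] [15, 10, 15, 6])) (.leaf [535, 8561, 94172, 1506753] [15, 10, 15, 6]))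
def tQ3_29 : BT := (.leaf [534, 8545, 93996, 1503937] [15, 10, 15, 6])
def tQ3_27 : BT := .split 3 (4) tQ3_28 tQ3_29
def tQ3_30 : BT := (.split 1 (14) (.leaf [538, 8609, 94700, 1515201] [15, 10, 15, 6]) (.split 3 (4) (.leaf [538, 8609, 94700, 1515201] [15, 10, 15, 6]) (.split 1 (15) (.leaf [538, 8609, 94700, 1515201] [15, 10, 15, 6]) (.split 0 (12728) (.leaf [537, 8593, 94524, 1512385] [15, 10, 15, 6]) (.leaf [539, 8625, 94876, 1518017] [15, 10, 15, 6])))))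
def tQ3_26 : BT := .split 0 (9456) tQ3_27 tQ3_30
def tQ3_20 : BT := .split 1 (12) tQ3_21 tQ3_26
def tQ3_0 : BT := .split 1 (8) tQ3_1 tQ3_20

/-- the data -/
def C : Cst where
  A := ⟨3, 3, 0, 3, 2, 1⟩
  a := (424, 45)
  b := (148, 5)
  c := (156, 5)
  r1 := (3, 4)
  r2 := (11, 12)
  rho1 := (0, 1)
  rho2 := (11, 12)
  g := (9, 25000)
  er := (1, 2)
  kap := (0, 1)
  thm := (1, 20)
  t1 := (12, 25)
  t2 := (967, 2000)
  m0 := (989, 2000)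
  kp0 := (3, 2)
  W := (.add (.add (.add (.add (.add (.add (.add (.mul (.rat (-37387) 500000) (.pow (.var 1) 2)) (.mul (.rat (1) 2) (.var 0))) (.mul (.mul (.rat (26517) 1000000) (.var 0)) (.var 1))) (.mul (.mul (.rat (13367) 500000) (.var 0)) (.pow (.var 1) 2))) (.mul (.rat (24829) 1000000) (.pow (.var 0) 2))) (.mul (.mul (.rat (-5959) 1000000) (.pow (.var 0) 2)) (.var 1))) (.mul (.rat (837) 200000) (.pow (.var 0) 3))) (.mul (.rat (-21) 12500) (.pow (.var 0) 4)))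
  V1h := (.add (.add (.add (.add (.add (.add (.add (.add (.mul (.rat (-1) 16) (.var 1)) (.mul (.rat (84631) 10000000) (.pow (.var 1) 2))) (.mul (.rat (1) 8) (.var 0))) (.mul (.mul (.rat (-90661) 5000000) (.var 0)) (.var 1))) (.mul (.mul (.rat (165707) 10000000) (.var 0)) (.pow (.var 1) 2))) (.mul (.rat (34257) 2000000) (.pow (.var 0) 2))) (.mul (.mul (.rat (-30029) 1250000) (.pow (.var 0) 2)) (.var 1))) (.mul (.rat (21911) 10000000) (.pow (.var 0) 3))) (.mul (.rat (19043) 2000000) (.pow (.var 0) 4)))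
  V2h := (.add (.add (.add (.add (.mul (.rat (1) 216) (.var 1)) (.mul (.rat (-93) 200000) (.pow (.var 1) 2))) (.mul (.mul (.rat (6819) 5000000) (.var 0)) (.var 1))) (.mul (.rat (-5957) 10000000) (.pow (.var 0) 2))) (.mul (.rat (-481) 2500000) (.pow (.var 0) 3)))
  Xi := (.add (.add (.add (.rat (61) 15) (.mul (.rat (-687289) 100000) (.var 0))) (.mul (.rat (12563739) 1000000) (.pow (.var 0) 2))) (.mul (.rat (12064629) 1000000) (.pow (.var 0) 3)))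
  Ek := (.rat 0 1)
  Sz := (.add (.add (.add (.add (.mul (.rat (1) 3) (.var 0)) (.mul (.rat (1) 9) (.pow (.var 0) 2))) (.mul (.rat (5) 81) (.pow (.var 0) 3))) (.mul (.rat (10) 243) (.pow (.var 0) 4))) (.mul (.rat (22) 729) (.pow (.var 0) 5)))
  a0 := 500
  b0 := 561
  c0 := 944
  bRho := (0, 91, 500)
  bBeta := (0, 16, 16)
  bT := (960, 967, 2000)
  bKap := (0, 24, 16)
  bEps := (0, 1, 1000)
  bSig := (0, 28, 125)
  bNu := (0, 817, 1000)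
  bTh := (0, 8, 160)
  bZ := (0, 3709498063, 4000000000)
  tX := tX_0
  tY1 := tY1_0
  tY2 := tY2_0
  tM1 := (.leaf [11, 78, 547] [6, 6, 6])
  tM2 := (.leaf [10, 71, 498] [6, 6, 6])
  tN1 := (.leaf [13, 92, 645] [6, 6, 6])
  tN2 := (.leaf [12, 85, 596] [6, 6, 6])
  tQ1 := tQ1_0
  tQ2 := (.leaf [610, 13421, 214737, 2362108] [21, 15, 10, 15])
  tW := (.leaf [71, 640] [8, 8])
  tK := (.leaf [127, 890] [6, 5])
  tS1 := (.leaf [91, 456] [4, 4])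
  tS2 := (.leaf [98, 491] [4, 4])
  tC := (.leaf [79, 317, 1269] [3, 3, 4])
  tXi := (.leaf [50, 201] [3, 0])
  tE := (.leaf [1, 2] [0, 0])
  tZ := (.leaf [525] [15])

/-- the further data -/
def X : Ext where
  rho0 := (91, 500)
  bR3 := (2912, 16000, 16000)
  bRW := (0, 1, 1)
  tQ3 := tQ3_0

def btQ1_root : List (ℤ × ℤ × ℕ) := [C.bRho, C.bBeta, C.bT, C.bKap]

def btQ1_0l : List (ℤ × ℤ × ℕ) := btQ1_root.set 3 ((btQ1_root.getD 3 (0, 1, 1)).1, (12), (btQ1_root.getD 3 (0, 1, 1)).2.2)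

def btQ1_0r : List (ℤ × ℤ × ℕ) := btQ1_root.set 3 ((12), (btQ1_root.getD 3 (0, 1, 1)).2.1, (btQ1_root.getD 3 (0, 1, 1)).2.2)

def btQ3_root : List (ℤ × ℤ × ℕ) := [X.bR3, C.bBeta, C.bT, C.bTh]

def btQ3_0l : List (ℤ × ℤ × ℕ) := btQ3_root.set 1 ((btQ3_root.getD 1 (0, 1, 1)).1, (8), (btQ3_root.getD 1 (0, 1, 1)).2.2)

def btQ3_0r : List (ℤ × ℤ × ℕ) := btQ3_root.set 1 ((8), (btQ3_root.getD 1 (0, 1, 1)).2.1, (btQ3_root.getD 1 (0, 1, 1)).2.2)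

def btQ3_1l : List (ℤ × ℤ × ℕ) := btQ3_0l.set 0 ((btQ3_0l.getD 0 (0, 1, 1)).1, (9456), (btQ3_0l.getD 0 (0, 1, 1)).2.2)

def btQ3_1r : List (ℤ × ℤ × ℕ) := btQ3_0l.set 0 ((9456), (btQ3_0l.getD 0 (0, 1, 1)).2.1, (btQ3_0l.getD 0 (0, 1, 1)).2.2)

def btQ3_2l : List (ℤ × ℤ × ℕ) := btQ3_1l.set 3 ((btQ3_1l.getD 3 (0, 1, 1)).1, (4), (btQ3_1l.getD 3 (0, 1, 1)).2.2)

def btQ3_2r : List (ℤ × ℤ × ℕ) := btQ3_1l.set 3 ((4), (btQ3_1l.getD 3 (0, 1, 1)).2.1, (btQ3_1l.getD 3 (0, 1, 1)).2.2)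

def btQ3_4l : List (ℤ × ℤ × ℕ) := btQ3_2r.set 0 ((btQ3_2r.getD 0 (0, 1, 1)).1, (6184), (btQ3_2r.getD 0 (0, 1, 1)).2.2)

def btQ3_4r : List (ℤ × ℤ × ℕ) := btQ3_2r.set 0 ((6184), (btQ3_2r.getD 0 (0, 1, 1)).2.1, (btQ3_2r.getD 0 (0, 1, 1)).2.2)

def btQ3_5l : List (ℤ × ℤ × ℕ) := btQ3_4l.set 1 ((btQ3_4l.getD 1 (0, 1, 1)).1, (4), (btQ3_4l.getD 1 (0, 1, 1)).2.2)

def btQ3_5r : List (ℤ × ℤ × ℕ) := btQ3_4l.set 1 ((4), (btQ3_4l.getD 1 (0, 1, 1)).2.1, (btQ3_4l.getD 1 (0, 1, 1)).2.2)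

def btQ3_6l : List (ℤ × ℤ × ℕ) := btQ3_5l.set 0 ((btQ3_5l.getD 0 (0, 1, 1)).1, (4548), (btQ3_5l.getD 0 (0, 1, 1)).2.2)

def btQ3_6r : List (ℤ × ℤ × ℕ) := btQ3_5l.set 0 ((4548), (btQ3_5l.getD 0 (0, 1, 1)).2.1, (btQ3_5l.getD 0 (0, 1, 1)).2.2)

def btQ3_7l : List (ℤ × ℤ × ℕ) := btQ3_6l.set 3 ((btQ3_6l.getD 3 (0, 1, 1)).1, (6), (btQ3_6l.getD 3 (0, 1, 1)).2.2)

def btQ3_7r : List (ℤ × ℤ × ℕ) := btQ3_6l.set 3 ((6), (btQ3_6l.getD 3 (0, 1, 1)).2.1, (btQ3_6l.getD 3 (0, 1, 1)).2.2)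

def btQ3_13l : List (ℤ × ℤ × ℕ) := btQ3_1r.set 1 ((btQ3_1r.getD 1 (0, 1, 1)).1, (4), (btQ3_1r.getD 1 (0, 1, 1)).2.2)

def btQ3_13r : List (ℤ × ℤ × ℕ) := btQ3_1r.set 1 ((4), (btQ3_1r.getD 1 (0, 1, 1)).2.1, (btQ3_1r.getD 1 (0, 1, 1)).2.2)

def btQ3_15l : List (ℤ × ℤ × ℕ) := btQ3_13r.set 3 ((btQ3_13r.getD 3 (0, 1, 1)).1, (4), (btQ3_13r.getD 3 (0, 1, 1)).2.2)

def btQ3_15r : List (ℤ × ℤ × ℕ) := btQ3_13r.set 3 ((4), (btQ3_13r.getD 3 (0, 1, 1)).2.1, (btQ3_13r.getD 3 (0, 1, 1)).2.2)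

def btQ3_17l : List (ℤ × ℤ × ℕ) := btQ3_15r.set 0 ((btQ3_15r.getD 0 (0, 1, 1)).1, (12728), (btQ3_15r.getD 0 (0, 1, 1)).2.2)

def btQ3_17r : List (ℤ × ℤ × ℕ) := btQ3_15r.set 0 ((12728), (btQ3_15r.getD 0 (0, 1, 1)).2.1, (btQ3_15r.getD 0 (0, 1, 1)).2.2)

def btQ3_20l : List (ℤ × ℤ × ℕ) := btQ3_0r.set 1 ((btQ3_0r.getD 1 (0, 1, 1)).1, (12), (btQ3_0r.getD 1 (0, 1, 1)).2.2)

def btQ3_20r : List (ℤ × ℤ × ℕ) := btQ3_0r.set 1 ((12), (btQ3_0r.getD 1 (0, 1, 1)).2.1, (btQ3_0r.getD 1 (0, 1, 1)).2.2)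

def btQ3_21l : List (ℤ × ℤ × ℕ) := btQ3_20l.set 0 ((btQ3_20l.getD 0 (0, 1, 1)).1, (9456), (btQ3_20l.getD 0 (0, 1, 1)).2.2)

def btQ3_21r : List (ℤ × ℤ × ℕ) := btQ3_20l.set 0 ((9456), (btQ3_20l.getD 0 (0, 1, 1)).2.1, (btQ3_20l.getD 0 (0, 1, 1)).2.2)

def btQ3_22l : List (ℤ × ℤ × ℕ) := btQ3_21l.set 0 ((btQ3_21l.getD 0 (0, 1, 1)).1, (6184), (btQ3_21l.getD 0 (0, 1, 1)).2.2)

def btQ3_22r : List (ℤ × ℤ × ℕ) := btQ3_21l.set 0 ((6184), (btQ3_21l.getD 0 (0, 1, 1)).2.1, (btQ3_21l.getD 0 (0, 1, 1)).2.2)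

def btQ3_26l : List (ℤ × ℤ × ℕ) := btQ3_20r.set 0 ((btQ3_20r.getD 0 (0, 1, 1)).1, (9456), (btQ3_20r.getD 0 (0, 1, 1)).2.2)

def btQ3_26r : List (ℤ × ℤ × ℕ) := btQ3_20r.set 0 ((9456), (btQ3_20r.getD 0 (0, 1, 1)).2.1, (btQ3_20r.getD 0 (0, 1, 1)).2.2)

def btQ3_27l : List (ℤ × ℤ × ℕ) := btQ3_26l.set 3 ((btQ3_26l.getD 3 (0, 1, 1)).1, (4), (btQ3_26l.getD 3 (0, 1, 1)).2.2)

def btQ3_27r : List (ℤ × ℤ × ℕ) := btQ3_26l.set 3 ((4), (btQ3_26l.getD 3 (0, 1, 1)).2.1, (btQ3_26l.getD 3 (0, 1, 1)).2.2)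

end Vale.Agent.Lib.P154.Neg.B4835
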